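import Vale.Agent.P074.Admissible
import Vale.Agent.P074.Sharp

namespace Vale.Agent.Results.P074.SharpExponent

open MeasureTheory Vale.Agent.P074

/-- The largest admissible stability exponent is one third in every dimension at least two;
optimal maps exist for all the data considered. -/
theorem result :
    ∀ d : ℕ, 2 ≤ d →
      IsGreatest {α : ℝ | α ∈ Set.Ioc (0 : ℝ) 1 ∧ Admissible d α} (1 / 3) ∧
      ∀ K : Set (EuclideanSpace ℝ (Fin d)), IsCompact K → Convex ℝ K → (interior K).Nonempty →
        ∀ Y : Set (EuclideanSpace ℝ (Fin d)), IsCompact Y →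
          ∀ μ : Measure (EuclideanSpace ℝ (Fin d)), IsProbabilityMeasure μ → μ Yᶜ = 0 →
            ∃ T, IsOptimalMap K μ T :=
  fun _ hd => ⟨isGreatest_third hd, fun _ hK hc hne _ hY _ _ hμY =>
    exists_optimalMap (le_trans one_le_two hd) hK hc hne hY hμY⟩

end Vale.Agent.Results.P074.SharpExponent
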